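import Vale.Agent.P004Z.St

/-! # P004Z GLUE, part 1: linear algebra, logarithms, principal parts -/

open Complex UpperHalfPlane MeasureTheory Filter Topology CongruenceSubgroup
open scoped Real MatrixGroups ComplexConjugate NumberTheorySymbols

noncomputable section

namespace Vale.Agent.P004Z.Gl

/-- extension of a map that kills `U ⊓ W` -/
theorem ext_map {K V M : Type*} [Field K] [AddCommGroup V] [Module K V] [AddCommGroup M]
    [Module K M] (U W : Submodule K V) (f : V →ₗ[K] M) (h : ∀ v ∈ U, v ∈ W → f v = 0) :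
    ∃ F : V →ₗ[K] M, (∀ u ∈ U, F u = f u) ∧ ∀ w ∈ W, F w = 0 := by
  let g1 : V →ₗ.[K] M := ⟨U, f.domRestrict U⟩
  let g2 : V →ₗ.[K] M := ⟨W, 0⟩
  have H : ∀ (x : g1.domain) (y : g2.domain), (x : V) = y → g1 x = g2 y := by
    intro x y e
    exact h x x.2 (e ▸ y.2)
  obtain ⟨F, hF⟩ := (g1.sup g2 H).toFun.exists_extend
  have hF' : ∀ z : (g1.sup g2 H).domain, F z = (g1.sup g2 H) z := fun z =>
    LinearMap.congr_fun hF z
  refine ⟨F, fun u hu => ?_, fun w hw => ?_⟩
  · have hm : u ∈ (g1.sup g2 H).domain := Submodule.mem_sup_left (S := U) (T := W) hu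
    rw [hF' ⟨u, hm⟩]
    exact ((LinearPMap.left_le_sup g1 g2 H).2 (x := ⟨u, hu⟩) (y := ⟨u, hm⟩) rfl).symm
  · have hm : w ∈ (g1.sup g2 H).domain := Submodule.mem_sup_right (S := U) (T := W) hw
    rw [hF' ⟨w, hm⟩]
    exact ((LinearPMap.right_le_sup g1 g2 H).2 (x := ⟨w, hw⟩) (y := ⟨w, hm⟩) rfl).symm

theorem log_int (T : Finset ℕ) (hT : ∀ p ∈ T, p.Prime) (k : ℕ → ℤ)
    (h : ∑ p ∈ T, (k p : ℝ) * Real.log p = 0) : ∀ p ∈ T, k p = 0 := by
  intro p hp
  have : Fact p.Prime := ⟨hT p hp⟩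
  have h0 : ∀ q ∈ T, ((q : ℚ) ^ k q) ≠ 0 := fun q hq =>
    zpow_ne_zero _ (by exact_mod_cast (hT q hq).ne_zero)
  have h1 : (∏ q ∈ T, (q : ℚ) ^ k q) = 1 := by
    have h2 : Real.log (∏ q ∈ T, (q : ℝ) ^ k q) = 0 := by
      rw [Real.log_prod (fun q hq => zpow_ne_zero _ (by exact_mod_cast (hT q hq).ne_zero)), ← h]
      exact Finset.sum_congr rfl fun q _ => Real.log_zpow _ _
    have h3 : 0 < ∏ q ∈ T, (q : ℝ) ^ k q :=
      Finset.prod_pos fun q hq => zpow_pos (by exact_mod_cast (hT q hq).pos) _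
    have h4 := Real.eq_one_of_pos_of_log_eq_zero h3 h2
    apply Rat.cast_injective (α := ℝ)
    push_cast
    exact h4
  have h5 : ∀ S : Finset ℕ, S ⊆ T → padicValRat p (∏ q ∈ S, (q : ℚ) ^ k q) =
      if p ∈ S then k p else 0 := by
    intro S
    induction S using Finset.induction_on with
    | empty => simp
    | insert q S hq ih =>
      intro hS
      have hqT : q ∈ T := hS (Finset.mem_insert_self _ _)
      have hST : S ⊆ T := fun x hx => hS (Finset.mem_insert_of_mem hx)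
      rw [Finset.prod_insert hq, padicValRat.mul (h0 q hqT)
        (Finset.prod_ne_zero_iff.2 fun x hx => h0 x (hST hx)), ih hST,
        padicValRat.zpow]
      by_cases e : p = q
      · subst e
        simp [hq, padicValRat.self (hT p hp).one_lt]
      · have : Fact q.Prime := ⟨hT q hqT⟩
        have : padicValRat p (q : ℚ) = 0 := by
          rw [padicValRat.of_nat, padicValNat_primes e]
          rfl
        simp [this, e]
  have h6 := h5 T subset_rfl
  rw [h1, if_pos hp] at h6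
  simpa using h6.symm

theorem log_rat (T : Finset ℕ) (hT : ∀ p ∈ T, p.Prime) (k : ℕ → ℚ)
    (h : ∑ p ∈ T, (k p : ℝ) * Real.log p = 0) : ∀ p ∈ T, k p = 0 := by
  intro p hp
  set D : ℕ := ∏ q ∈ T, (k q).den with hD
  have hD0 : D ≠ 0 := Finset.prod_ne_zero_iff.2 fun q _ => (k q).den_ne_zero
  have hk : ∀ q ∈ T, ∃ m : ℤ, (m : ℚ) = D * k q := by
    intro q hq
    obtain ⟨e, he⟩ : (k q).den ∣ D := Finset.dvd_prod_of_mem _ hq
    refine ⟨e * (k q).num, ?_⟩
    rw [he]
    push_cast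
    rw [mul_comm ((k q).den : ℚ), mul_assoc, Rat.den_mul_eq_num]
  choose! m hm using hk
  have h1 : ∑ q ∈ T, (m q : ℝ) * Real.log q = 0 := by
    have : ∑ q ∈ T, (m q : ℝ) * Real.log q = D * ∑ q ∈ T, (k q : ℝ) * Real.log q := by
      rw [Finset.mul_sum]
      refine Finset.sum_congr rfl fun q hq => ?_
      have := congrArg (fun x : ℚ => (x : ℝ)) (hm q hq)
      push_cast at this
      rw [this, mul_assoc]
    rw [this, h, mul_zero]
  have h2 := log_int T hT m h1 p hp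
  have h3 := hm p hp
  rw [h2] at h3
  have h4 : (D : ℚ) ≠ 0 := by exact_mod_cast hD0
  simpa [h4] using h3.symm

variable {N : ℕ} [NeZero N] {δ : ℕ}

/-- `pr` as a linear map -/
def prL (x : Cf N) : PP N →ₗ[ℂ] ℂ := Finsupp.linearCombination ℂ fun i => x i.1 i.2

omit [NeZero N] in
theorem pr_eq (x : Cf N) (c : PP N) : pr x c = prL x c := rfl

omit [NeZero N] in
theorem pr_single (x : Cf N) (i : ℕ × ZMod (2 * N)) (a : ℂ) :
    pr x (Finsupp.single i a) = a * x i.1 i.2 := by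
  rw [pr_eq, prL, Finsupp.linearCombination_single, smul_eq_mul]

omit [NeZero N] in
theorem pr_add (x : Cf N) (c c' : PP N) : pr x (c + c') = pr x c + pr x c' := (prL x).map_add _ _

omit [NeZero N] in
theorem pr_smul (x : Cf N) (k : ℂ) (c : PP N) : pr x (k • c) = k * pr x c := (prL x).map_smul _ _

omit [NeZero N] in
theorem pr_zero (x : Cf N) : pr x 0 = 0 := (prL x).map_zero

omit [NeZero N] in
theorem add_pr (x y : Cf N) (c : PP N) : pr (x + y) c = pr x c + pr y c := by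
  simp only [pr, Finsupp.sum, Pi.add_apply, mul_add, Finset.sum_add_distrib]

omit [NeZero N] in
theorem smul_pr (k : ℂ) (x : Cf N) (c : PP N) : pr (k • x) c = k * pr x c := by
  simp only [pr, Finsupp.sum, Pi.smul_apply, smul_eq_mul, Finset.mul_sum]
  exact Finset.sum_congr rfl fun _ _ => by ring

omit [NeZero N] in
theorem pr_congr {x y : Cf N} {c : PP N} (h : ∀ i ∈ c.support, x i.1 i.2 = y i.1 i.2) :
    pr x c = pr y c :=
  Finset.sum_congr rfl fun i hi => by simp only [h i hi]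

omit [NeZero N] in
theorem tt_single (l : ℕ) (i : ℕ × ZMod (2 * N)) (a : ℂ) :
    Tt δ l (Finsupp.single i a) = a • (Finsupp.single (l ^ 2 * i.1, l * i.2) 1 +
      Finsupp.single i ((J(l | δ) * J(-((δ : ℤ) * i.1) | l) : ℤ) : ℂ) +
      if l ^ 2 ∣ i.1 then Finsupp.single (i.1 / l ^ 2, (l : ZMod (2 * N))⁻¹ * i.2) (l : ℂ)
      else 0) := by
  rw [Tt]
  erw [Finsupp.lsum_single]
  rfl

omit [NeZero N] in
theorem pr_tt (l : ℕ) (x : Cf N) (c : PP N) : pr x (Tt δ l c) = pr (TT δ l x) c := by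
  induction c using Finsupp.induction_linear with
  | zero => rw [map_zero, pr_zero, pr_zero]
  | add c c' h h' => rw [map_add, pr_add, pr_add, h, h']
  | single i a =>
    rw [tt_single, pr_smul, pr_add, pr_add, pr_single, pr_single, pr_single, TT]
    split_ifs
    · rw [pr_single, one_mul]
    · rw [pr_zero, one_mul]

theorem in_iff {n ρ : ℤ} {r : ZMod (2 * N)} (h : (ρ : ZMod (2 * N)) = r) :
    In N δ n r ↔ (4 * N : ℤ) ∣ ρ ^ 2 + δ * n := by
  have h1 : ((2 * N : ℕ) : ℤ) ∣ ρ - r.val := by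
    rw [← ZMod.intCast_zmod_eq_zero_iff_dvd]
    push_cast
    rw [h, ZMod.natCast_zmod_val, sub_self]
  obtain ⟨k, hk⟩ := h1
  have h2 : ρ ^ 2 + δ * n = ((r.val : ℤ) ^ 2 + δ * n) + 4 * N * (k * r.val + N * k ^ 2) := by
    have : ρ = r.val + 2 * N * k := by push_cast at hk; linarith
    rw [this]
    ring
  rw [In, h2]
  exact (dvd_add_left (dvd_mul_right _ _)).symm

theorem in_neg {n : ℤ} {r : ZMod (2 * N)} : In N δ n (-r) ↔ In N δ n r := by
  rw [in_iff (ρ := -(r.val : ℤ)) (by simp), neg_sq, In]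

theorem in_mul {n : ℤ} {r : ZMod (2 * N)} {l : ℕ} (hl : l.Coprime (2 * N)) :
    In N δ (l ^ 2 * n) (l * r) ↔ In N δ n r := by
  rw [in_iff (ρ := l * (r.val : ℤ)) (by simp), In]
  have e : ((l : ℤ) * r.val) ^ 2 + δ * (l ^ 2 * n) = l ^ 2 * ((r.val : ℤ) ^ 2 + δ * n) := by ring
  rw [e]
  refine ⟨fun h => ?_, fun h => h.mul_left _⟩
  have h1 : Nat.Coprime (4 * N) (l ^ 2) := by
    have h2 : l.Coprime 2 := hl.coprime_mul_right_right
    have h3 : l.Coprime (2 * (2 * N)) := h2.mul_right hl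
    rw [show 4 * N = 2 * (2 * N) by ring]
    exact (h3.pow_left 2).symm
  have h4 : IsCoprime ((4 * N : ℕ) : ℤ) ((l ^ 2 : ℕ) : ℤ) := Nat.isCoprime_iff_coprime.2 h1
  push_cast at h4
  exact h4.dvd_of_dvd_mul_left h

theorem eps_sq (δ : ℕ) : eps δ * eps δ = 1 := by
  rw [eps, ← jacobiSym.mul_left]
  simp [jacobiSym.one_left]

theorem eps_sqC (δ : ℕ) : (eps δ : ℂ) * eps δ = 1 := by exact_mod_cast eps_sq δ

end Vale.Agent.P004Z.Gl
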