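import Vale.Agent.P004Z.Gl.Lin

/-! # P004Z GLUE, part 3: the Petersson product, weakly holomorphic forms, Serre duality -/

open Complex UpperHalfPlane MeasureTheory Filter Topology CongruenceSubgroup
open scoped Real MatrixGroups ComplexConjugate NumberTheorySymbols

noncomputable section

namespace Vale.Agent.P004Z.Gl

variable {N : ℕ} [NeZero N] {δ : ℕ}

theorem meas_FD : MeasurableSet FD := by
  have h1 : MeasurableSet {τ : ℂ | |τ.re| ≤ 1 / 2} :=
    (isClosed_le (by fun_prop) continuous_const).measurableSet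
  have h2 : MeasurableSet {τ : ℂ | 1 ≤ ‖τ‖} :=
    (isClosed_le continuous_const (by fun_prop)).measurableSet
  have h3 : MeasurableSet {τ : ℂ | 0 < τ.im} :=
    (isOpen_lt continuous_const (by fun_prop)).measurableSet
  exact h1.inter (h2.inter h3)

omit [NeZero N] in
theorem fn_smul (k : ℂ) (x : Cf N) (r : ZMod (2 * N)) (τ : ℂ) :
    fn (k • x) r τ = k * fn x r τ := by
  simp only [fn, Pi.smul_apply, smul_eq_mul, mul_assoc, tsum_mul_left]

theorem fn_add {x y : Cf N} (hx : IsS δ x) (hy : IsS δ y) (r : ZMod (2 * N)) {τ : ℂ}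
    (hτ : 0 < τ.im) : fn (x + y) r τ = fn x r τ + fn y r τ := by
  simp only [fn, Pi.add_apply, add_mul]
  exact (hx.sum r τ hτ).of_norm.tsum_add (hy.sum r τ hτ).of_norm

/-- the product on arrays -/
def B (x y : Cf N) : ℂ := pet (fn x) (fn y)

theorem B_conj (x y : Cf N) : B y x = conj (B x y) := by
  rw [B, B, pet, pet, ← integral_conj]
  congr 1
  funext τ
  simp only [map_mul, map_sum, conj_conj, conj_ofReal, mul_comm]

theorem B_smul (k : ℂ) (x y : Cf N) : B (k • x) y = k * B x y := by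
  rw [B, B, pet, pet, ← integral_const_mul]
  congr 1
  funext τ
  simp only [fn_smul, mul_assoc, ← Finset.mul_sum]

theorem B_add (hP : PETS) (ok : Ok N δ) {x y z : Cf N} (hx : IsS δ x) (hy : IsS δ y)
    (hz : IsS δ z) : B (x + y) z = B x z + B y z := by
  rw [B, B, B, pet, pet, pet, ← integral_add ((hP N δ ok x hx).2.2.1 z hz)
    ((hP N δ ok y hy).2.2.1 z hz)]
  refine setIntegral_congr_fun meas_FD fun τ hτ => ?_
  simp only [fn_add hx hy _ hτ.2.2, add_mul, Finset.sum_add_distrib]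

theorem isS_comb (hF : FIN) (ok : Ok N δ) (k : ℂ) {x y : Cf N} (hx : IsS δ x) (hy : IsS δ y) :
    IsS δ (k • x + y) := by
  obtain ⟨V, hV, -⟩ := hF N δ ok
  exact (hV _).1 (V.add_mem (V.smul_mem k ((hV _).2 hx)) ((hV _).2 hy))

theorem isS_smul (hF : FIN) (ok : Ok N δ) (k : ℂ) {x : Cf N} (hx : IsS δ x) : IsS δ (k • x) := by
  obtain ⟨V, hV, -⟩ := hF N δ ok
  exact (hV _).1 (V.smul_mem k ((hV _).2 hx))

/-- non degeneracy -/
theorem eq_of_B (hF : FIN) (hP : PETS) (ok : Ok N δ) (k : ℤ) {x x' : Cf N} (hx : IsS δ x)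
    (hx' : IsS δ x') (h : ∀ y, IsS δ y → B y x' = k * B y x) : x' = (k : ℂ) • x := by
  have hz := isS_comb hF ok (-k) hx hx'
  have h1 : B ((-k : ℂ) • x + x') ((-k : ℂ) • x + x') = 0 := by
    rw [B_add hP ok (isS_smul hF ok _ hx) hx' hz, B_smul, B_conj _ x', h _ hz, B_conj _ x]
    simp
  have h2 := (hP N δ ok _ hz).2.2.2 h1
  have h3 : (-k : ℂ) • x = -((k : ℂ) • x) := neg_smul (k : ℂ) x
  rw [h3, neg_add_eq_zero] at h2
  exact h2.symm

theorem B_tt (hS : SELF) (ok : Ok N δ) {S : ℕ} {a : ℕ → ℤ} {x y : Cf N} (hx : IsS δ x)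
    (he : Eig δ S a x) (hy : IsS δ y) {l : ℕ} (hl : l.Prime) (h1 : ¬ l ∣ 2 * N * δ)
    (h2 : ¬ l ∣ S) : B (TT δ l y) x = a l * B y x := by
  have := hS N δ l ok hl h1 y x hy hx
  rw [B, this, he l hl h2]
  change B y (_ • x) = _
  rw [B_conj, B_smul, B_conj y x]
  simp

/-- forms with many vanishing coefficients are orthogonal to the eigenform -/
theorem orth (hS : SELF) (hV : LEMV) (ok : Ok N δ) {a : ℕ → ℤ} {x y : Cf N} (hx : IsS δ x)
    (he : Eig δ (2 * N * δ) a x) (hy : IsS δ y) {p : ℕ} (hp : p.Prime) (h1 : ¬ p ∣ 2 * N * δ)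
    (ht : a p ≠ p + 1 ∧ a p ≠ -(p + 1))
    (hv : ∀ (n : ℕ) r, J(-((δ : ℤ) * n) | p) = 1 → y n r = 0) : B y x = 0 := by
  obtain ⟨η, hη, e⟩ := hV N δ p ok hp h1 y hy hv
  have h2 := B_tt hS ok hx he hy hp h1 h1
  rw [e, B_smul] at h2
  by_contra h0
  have h3 := mul_right_cancel₀ h0 h2
  rcases hη with rfl | rfl
  · apply ht.1
    have : ((a p : ℤ) : ℂ) = ((p + 1 : ℤ) : ℂ) := by push_cast; rw [← h3]; ring
    exact_mod_cast this
  · apply ht.2
    have : ((a p : ℤ) : ℂ) = ((-(p + 1) : ℤ) : ℂ) := by push_cast; rw [← h3]; ring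
    exact_mod_cast this

omit [NeZero N] in
theorem hf_zero (a : ℤ → ZMod (2 * N) → ℂ) (r : ZMod (2 * N)) (τ : ℂ) :
    hf a 0 r τ = ∑' n : ℤ, a n r * ee (n * τ / (4 * N)) := by
  simp [hf, nh, fn]

theorem WH.int {c : PP N} (h : WH δ c) : IsInt c := by
  obtain ⟨a, h⟩ := h
  rintro ⟨n, r⟩
  rcases Nat.eq_zero_or_pos n with rfl | hn
  · exact ⟨0, by simp [h.zero]⟩
  · exact ⟨_, h.pp n r hn⟩

theorem WH.comb (k : ℤ) {c c' : PP N} (h : WH δ c) (h' : WH δ c') : WH δ ((k : ℂ) • c + c') := by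
  obtain ⟨a, h⟩ := h
  obtain ⟨a', h'⟩ := h'
  have e : ∀ r (τ : ℂ), 0 < τ.im → hf (fun n r => ((k * a n r + a' n r : ℤ) : ℂ)) 0 r τ =
      k * hf (fun n r => (a n r : ℂ)) 0 r τ + hf (fun n r => (a' n r : ℂ)) 0 r τ := by
    intro r τ hτ
    rw [hf_zero, hf_zero, hf_zero, ← tsum_mul_left,
      ← ((h.sum r τ hτ).of_norm.mul_left _).tsum_add (h'.sum r τ hτ).of_norm]
    refine tsum_congr fun n => ?_
    push_cast
    ring
  refine ⟨fun n r => k * a n r + a' n r, h.s, fun n r hn => ?_, fun r => ?_, fun n r hn => ?_,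
    fun r τ hτ => ?_, fun τ hτ r => ?_⟩
  · by_cases h1 : (a n r : ℂ) = 0
    · refine h'.sup n r fun h2 => hn ?_
      push_cast
      rw [h1, h2]
      ring
    · exact h.sup n r h1
  · simp [h.zero, h'.zero]
  · simp [h.pp n r hn, h'.pp n r hn]
  · refine (((h.sum r τ hτ).mul_left ‖(k : ℂ)‖).add (h'.sum r τ hτ)).of_nonneg_of_le
      (fun _ => norm_nonneg _) fun n => ?_
    rw [← norm_mul]
    refine le_trans (le_of_eq ?_) (norm_add_le _ _)
    congr 1
    push_cast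
    ring
  · have h1 : 0 < (-1 / τ).im := by
      have h2 : τ ≠ 0 := fun e => by simp [e] at hτ
      rw [div_im]
      simpa [neg_div] using div_pos hτ (normSq_pos.2 h2)
    rw [e r _ h1, h.law τ hτ, h'.law τ hτ]
    simp only [e _ τ hτ, mul_add, Finset.sum_add_distrib, Finset.mul_sum]
    congr 1
    exact Finset.sum_congr rfl fun _ _ => by ring

theorem WH.zero {c : PP N} (h : WH δ c) : WH δ (0 : PP N) := by
  simpa using WH.comb (-1) h h

/-- symmetrisation -/
def sy (δ : ℕ) (y : Cf N) : Cf N := fun n r => by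
  classical exact if 0 < n ∧ In N δ n r then (y n r + eps δ * y n (-r)) / 2 else 0

omit [NeZero N] in
theorem pr_neg {c : PP N} (hc : ∀ n r, c (n, -r) = eps δ * c (n, r)) (y : Cf N) :
    pr (fun n r => eps δ * y n (-r)) c = pr y c := by
  refine Finset.sum_bij' (fun i _ => (i.1, -i.2)) (fun i _ => (i.1, -i.2)) ?_ ?_ ?_ ?_ ?_
  · intro i hi
    rw [Finsupp.mem_support_iff] at hi ⊢
    rw [hc]
    exact mul_ne_zero (left_ne_zero_of_mul_eq_one (eps_sqC δ)) hi
  · intro i hi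
    rw [Finsupp.mem_support_iff] at hi ⊢
    rw [hc]
    exact mul_ne_zero (left_ne_zero_of_mul_eq_one (eps_sqC δ)) hi
  · simp
  · simp
  · intro i _
    simp only [hc]
    ring

omit [NeZero N] in
theorem pr_sy {c : PP N} (hc : Adm δ c) (y : Cf N) : pr (sy δ y) c = pr y c := by
  have : pr (sy δ y) c = pr ((1 / 2 : ℂ) • (y + fun n r => eps δ * y n (-r))) c := by
    refine pr_congr fun i hi => ?_
    rw [Finsupp.mem_support_iff] at hi
    have h1 : 0 < i.1 := Nat.pos_of_ne_zero fun e => hi (by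
      have := hc.zero i.2
      rwa [← e] at this)
    rw [sy, if_pos ⟨h1, hc.sup _ _ hi⟩]
    simp only [Pi.smul_apply, Pi.add_apply, smul_eq_mul]
    ring
  rw [this, smul_pr, add_pr, pr_neg hc.sym]
  ring

theorem isS_sy (hS : SERRE) (hP : PAIR) (ok : Ok N δ) {y : Cf N}
    (h : ∀ c, WH δ c → pr y c = 0) : IsS δ (sy δ y) := by
  refine hS N δ ok _ (fun r => by simp [sy]) (fun n r hn => ?_) (fun n r => ?_) fun c hc => ?_
  · by_contra h1
    exact hn (by simp [sy, h1])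
  · by_cases h1 : 0 < n ∧ In N δ n r
    · rw [sy, sy, if_pos h1, if_pos ⟨h1.1, in_neg.2 h1.2⟩, neg_neg]
      linear_combination (-(y n (-r)) / 2) * eps_sqC δ
    · rw [sy, sy, if_neg h1, if_neg fun e => h1 ⟨e.1, in_neg.1 e.2⟩, mul_zero]
  · obtain ⟨a, ha⟩ := id hc
    rw [pr_sy (hP N δ ok _ _ _ ha).1, h c hc]

omit [NeZero N] in
theorem pr_int (F : PP N →ₗ[ℚ] ℂ) {c : PP N} (hc : IsInt c) :
    pr (fun n r => F (Finsupp.single (n, r) 1)) c = F c := by
  conv_rhs => rw [← Finsupp.sum_single c, Finsupp.sum, map_sum]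
  refine Finset.sum_congr rfl fun i _ => ?_
  obtain ⟨k, hk⟩ := hc i
  have : Finsupp.single i (c i) = (k : ℚ) • Finsupp.single i (1 : ℂ) := by
    rw [Finsupp.smul_single, hk]
    simp
  rw [this, map_smul, Rat.smul_def]
  simp [hk]

/-- arrays killing the weakly holomorphic principal parts off the squares -/
theorem serre_off (hS : SERRE) (hP : PAIR) (ok : Ok N δ) {δ' : ℕ} (h0 : WH δ (0 : PP N))
    (d : Cf N) (h : ∀ c, WH δ c → Off δ δ' c → pr d c = 0) :
    ∃ y, IsS δ y ∧ (∀ c, Adm δ c → Off δ δ' c → pr y c = pr d c) ∧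
      ∀ n r, ¬ IsSquare (δ * δ' * n) → d n r = 0 → d n (-r) = 0 → y n r = 0 := by
  let U : Submodule ℚ (PP N) :=
    (Finsupp.supported ℂ ℂ {i : ℕ × ZMod (2 * N) | ¬ IsSquare (δ * δ' * i.1)}).restrictScalars ℚ
  have hU : ∀ c, c ∈ U ↔ Off δ δ' c := fun c => Iff.rfl
  have sm : ∀ (k : ℤ) c, WH δ c → WH δ ((k : ℂ) • c) := fun k c hc => by
    simpa using WH.comb k hc h0
  let W : Submodule ℚ (PP N) :=
    { carrier := {c | ∃ m : ℕ, 0 < m ∧ WH δ ((m : ℂ) • c)}
      zero_mem' := ⟨1, one_pos, by simpa using h0⟩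
      add_mem' := by
        rintro c c' ⟨m, hm, h1⟩ ⟨m', hm', h2⟩
        refine ⟨m * m', mul_pos hm hm', ?_⟩
        have := WH.comb m' h1 (sm m _ h2)
        convert this using 1
        push_cast
        simp only [smul_add, smul_smul, mul_comm]
      smul_mem' := by
        rintro q c ⟨m, hm, h1⟩
        refine ⟨m * q.den, mul_pos hm q.den_pos, ?_⟩
        convert sm q.num _ h1 using 1
        rw [← Rat.cast_smul_eq_qsmul ℂ q c, smul_smul, smul_smul]
        congr 1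
        push_cast
        rw [mul_assoc, mul_comm]
        congr 1
        exact_mod_cast Rat.den_mul_eq_num q }
  obtain ⟨F, h1, h2⟩ := ext_map U W ((prL d).restrictScalars ℚ) (by
    rintro v hv ⟨m, hm, h1⟩
    have h2 := h _ h1 ((Finsupp.supported ℂ ℂ _).smul_mem _ hv)
    rw [pr_smul] at h2
    exact (mul_eq_zero.1 h2).resolve_left (by exact_mod_cast hm.ne'))
  have h3 : ∀ n r, ¬ IsSquare (δ * δ' * n) → F (Finsupp.single (n, r) 1) = d n r := by
    intro n r hn
    rw [h1 _ (Finsupp.single_mem_supported ℂ _ hn)]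
    exact (pr_single d _ _).trans (one_mul _)
  refine ⟨sy δ fun n r => F (Finsupp.single (n, r) 1), isS_sy hS hP ok fun c hc => ?_,
    fun c hc ho => ?_, fun n r hn e e' => ?_⟩
  · rw [pr_int F (WH.int hc)]
    exact h2 c ⟨1, one_pos, by simpa using hc⟩
  · rw [pr_sy hc]
    exact pr_congr fun i hi => h3 _ _ (ho i hi)
  · simp [sy, h3 _ _ hn, e, e']

end Vale.Agent.P004Z.Gl
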