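import Vale.Agent.P004Z.St

/-! # P004Z GLUE, part 2: linear combinations of Green functions -/

open Complex UpperHalfPlane MeasureTheory Filter Topology CongruenceSubgroup
open scoped Real MatrixGroups ComplexConjugate NumberTheorySymbols

noncomputable section

namespace Vale.Agent.P004Z.Gl

variable {Γ : Subgroup SL(2, ℤ)} {A A' Φ Φ' : ℍ → ℂ}

theorem green_zero : Green Γ 0 0 where
  dv _ _ _ := rfl
  inv _ _ _ _ := rfl
  loc w := ⟨0, 0, analyticAt_const, analyticAt_const, Eventually.of_forall fun z => by simp⟩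
  bdd _ := ⟨0, 0, fun z _ => by simp⟩

theorem smul_punct (γ : SL(2, ℤ)) (z : ℍ) :
    Tendsto (fun u : ℍ => γ • u) (𝓝[≠] z) (𝓝[≠] (γ • z)) := by
  have hc : Continuous fun u : ℍ => γ • u := by
    have : (fun u : ℍ => γ • u) = fun u : ℍ => (γ : GL (Fin 2) ℝ) • u := rfl
    rw [this]
    exact continuous_const_smul _
  refine tendsto_nhdsWithin_iff.2 ⟨hc.continuousAt.tendsto.mono_left nhdsWithin_le_nhds, ?_⟩
  filter_upwards [self_mem_nhdsWithin] with u hu
  exact fun e => hu (smul_left_cancel γ e)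

/-- linear combinations -/
theorem green_comb (k : ℂ) (h : Green Γ A Φ) (h' : Green Γ A' Φ') :
    ∃ Ψ, Green Γ (k • A + A') Ψ ∧ ∀ z, A z = 0 → A' z = 0 → Ψ z = k * Φ z + Φ' z := by
  classical
  let F : ℍ → ℂ := fun z => k * Φ z + Φ' z
  let Ψ : ℍ → ℂ := fun z => if A z = 0 ∧ A' z = 0 then F z else limUnder (𝓝[≠] z) F
  have hΨ : ∀ z, A z = 0 → A' z = 0 → Ψ z = F z := fun z h1 h2 => if_pos ⟨h1, h2⟩
  -- the local shape
  have L : ∀ w : ℍ, ∃ a b : ℂ → ℂ, AnalyticAt ℂ a w ∧ AnalyticAt ℂ b w ∧ ∀ᶠ z : ℍ in 𝓝 w,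
      (z ≠ w → A z = 0 ∧ A' z = 0) ∧ (z ≠ w ∨ A w = 0 ∧ A' w = 0 →
        F z = -(k * A w + A' w) * (Real.log (normSq ((z : ℂ) - w)) : ℝ) + a z + conj (b z)) := by
    intro w
    obtain ⟨a, b, ha, hb, e⟩ := h.loc w
    obtain ⟨a', b', ha', hb', e'⟩ := h'.loc w
    refine ⟨fun z => k * a z + a' z, fun z => conj k * b z + b' z,
      (analyticAt_const.mul ha).add ha', (analyticAt_const.mul hb).add hb', ?_⟩
    filter_upwards [e, e'] with z hz hz'
    refine ⟨fun n => ⟨hz.1 n, hz'.1 n⟩, fun n => ?_⟩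
    simp only [F]
    rw [hz.2 (n.imp id And.left), hz'.2 (n.imp id And.right)]
    simp only [map_add, map_mul, conj_conj]
    ring
  have T : ∀ w : ℍ, k * A w + A' w = 0 → ∀ a b : ℂ → ℂ, AnalyticAt ℂ a w → AnalyticAt ℂ b w →
      (∀ᶠ z : ℍ in 𝓝 w, z ≠ w → F z =
        -(k * A w + A' w) * (Real.log (normSq ((z : ℂ) - w)) : ℝ) + a z + conj (b z)) →
      Tendsto F (𝓝[≠] w) (𝓝 (a w + conj (b w))) := by
    intro w hw a b ha hb e
    have c : Tendsto (fun z : ℍ => a z + conj (b z)) (𝓝 w) (𝓝 (a w + conj (b w))) :=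
      (ha.continuousAt.tendsto.comp continuous_coe.continuousAt).add
        (continuous_conj.continuousAt.tendsto.comp
          (hb.continuousAt.tendsto.comp continuous_coe.continuousAt))
    refine (c.mono_left nhdsWithin_le_nhds).congr' ?_
    filter_upwards [e.filter_mono nhdsWithin_le_nhds, self_mem_nhdsWithin] with z hz hz'
    rw [hz hz', hw]
    ring
  refine ⟨Ψ, ⟨fun γ hγ z => ?_, fun γ hγ z hz => ?_, fun w => ?_, fun γ => ?_⟩, hΨ⟩
  · simp only [Pi.add_apply, Pi.smul_apply, h.dv γ hγ, h'.dv γ hγ]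
  · have hz0 : k * A z + A' z = 0 := hz
    by_cases c : A z = 0 ∧ A' z = 0
    · rw [hΨ z c.1 c.2, hΨ _ (by rw [h.dv γ hγ, c.1]) (by rw [h'.dv γ hγ, c.2])]
      simp only [F]
      rw [h.inv γ hγ z c.1, h'.inv γ hγ z c.2]
    · have c' : ¬ (A (γ • z) = 0 ∧ A' (γ • z) = 0) := by rwa [h.dv γ hγ, h'.dv γ hγ]
      simp only [Ψ, if_neg c, if_neg c']
      obtain ⟨a, b, ha, hb, e⟩ := L z
      obtain ⟨a', b', ha', hb', e'⟩ := L (γ • z)
      have t := T z hz0 a b ha hb (e.mono fun u hu n => hu.2 (Or.inl n))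
      have t' := T (γ • z) (by rwa [h.dv γ hγ, h'.dv γ hγ]) a' b' ha' hb'
        (e'.mono fun u hu n => hu.2 (Or.inl n))
      rw [t.limUnder_eq, t'.limUnder_eq]
      refine tendsto_nhds_unique ((t'.comp (smul_punct γ z)).congr' ?_) t
      filter_upwards [e.filter_mono nhdsWithin_le_nhds, self_mem_nhdsWithin] with u hu hu'
      simp only [F, Function.comp]
      rw [h.inv γ hγ u (hu.1 hu').1, h'.inv γ hγ u (hu.1 hu').2]
  · obtain ⟨a, b, ha, hb, e⟩ := L w
    refine ⟨a, b, ha, hb, ?_⟩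
    filter_upwards [e] with z hz
    refine ⟨fun n => ?_, fun n => ?_⟩
    · simp [(hz.1 n).1, (hz.1 n).2]
    · by_cases n1 : z = w
      · subst n1
        have n2 : k * A z + A' z = 0 := n.resolve_left fun x => x rfl
        by_cases c : A z = 0 ∧ A' z = 0
        · rw [hΨ z c.1 c.2]
          exact hz.2 (Or.inr c)
        · simp only [Ψ, if_neg c]
          rw [(T z n2 a b ha hb (e.mono fun u hu n => hu.2 (Or.inl n))).limUnder_eq]
          simp
      · rw [hΨ z (hz.1 n1).1 (hz.1 n1).2]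
        exact hz.2 (Or.inl n1)
  · obtain ⟨C, y, e⟩ := h.bdd γ
    obtain ⟨C', y', e'⟩ := h'.bdd γ
    refine ⟨‖k‖ * C + C', max y y', fun z hz => ?_⟩
    obtain ⟨e1, e2⟩ := e z (lt_of_le_of_lt (le_max_left _ _) hz)
    obtain ⟨e3, e4⟩ := e' z (lt_of_le_of_lt (le_max_right _ _) hz)
    refine ⟨by rw [Pi.add_apply, Pi.smul_apply, e1, e3, smul_zero, add_zero], ?_⟩
    rw [hΨ _ e1 e3]
    refine (norm_add_le _ _).trans (add_le_add ?_ e4)
    rw [norm_mul]
    exact mul_le_mul_of_nonneg_left e2 (norm_nonneg _)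

end Vale.Agent.P004Z.Gl
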