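import Vale.Agent.P004Z.Gl.Pet
import Vale.Agent.P004Z.Gl.Gr
import Vale.Agent.P004N.H461.Al

/-! # P004Z GLUE -/

open Complex UpperHalfPlane MeasureTheory Filter Topology CongruenceSubgroup
open scoped Real MatrixGroups ComplexConjugate NumberTheorySymbols

noncomputable section

namespace Vale.Agent.P004Z

open P004N (S2 QE TE RN Pr Lat ALw EF)

namespace Gl

variable {N : ℕ} [NeZero N] {δ δ' : ℕ}

omit [NeZero N] in
theorem lgs_add {κ ι : ℕ → ℕ → ZMod (2 * N) → ℚ} (h : Lgs δ δ' κ) (h' : Lgs δ δ' ι) :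
    Lgs δ δ' (κ + ι) ∧ lg (κ + ι) = lg κ + lg ι := by
  refine ⟨⟨fun n r => ((h.fin n r).union (h'.fin n r)).subset fun p hp => ?_, fun p n r hp => ?_,
    fun p n r hp => by simp [h.spl p n r hp, h'.spl p n r hp],
    fun p n r hp => by simp [h.van p n r hp, h'.van p n r hp]⟩, ?_⟩
  · by_contra e
    simp only [Set.mem_union, Set.mem_ofPred_eq, not_or, not_not] at e
    exact hp (by simp [e.1, e.2])
  · by_cases e : κ p n r = 0
    · exact h'.prime p n r fun e' => hp (by simp [e, e'])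
    · exact h.prime p n r e
  · funext n r
    simp only [lg, Pi.add_apply]
    rw [← ofReal_add, ← finsum_add_distrib]
    · congr 2
      funext p
      push_cast
      ring
    · exact (h.fin n r).subset fun p hp e => hp (by simp [e])
    · exact (h'.fin n r).subset fun p hp e => hp (by simp [e])

omit [NeZero N] in
theorem pr_lg {κ : ℕ → ℕ → ZMod (2 * N) → ℚ} (h : Lgs δ δ' κ) (c : PP N) :
    ∃ T : Finset ℕ, (∀ p ∈ T, p.Prime) ∧ (∀ p, p ∉ T → ∀ i ∈ c.support, κ p i.1 i.2 = 0) ∧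
      pr (lg κ) c = ∑ p ∈ T, pr (fun n r => (κ p n r : ℂ)) c * (Real.log p : ℝ) := by
  classical
  let T := c.support.biUnion fun i => (h.fin i.1 i.2).toFinset
  have hT : ∀ p, p ∉ T → ∀ i ∈ c.support, κ p i.1 i.2 = 0 := by
    intro p hp i hi
    by_contra e
    exact hp (Finset.mem_biUnion.2 ⟨i, hi, by simpa using e⟩)
  refine ⟨T, fun p hp => ?_, hT, ?_⟩
  · obtain ⟨i, -, hi⟩ := Finset.mem_biUnion.1 hp
    exact h.prime p i.1 i.2 (by simpa using hi)
  · simp only [pr, Finsupp.sum, Finset.sum_mul]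
    rw [Finset.sum_comm]
    refine Finset.sum_congr rfl fun i hi => ?_
    rw [lg, finsum_eq_sum_of_support_subset (s := T)]
    · push_cast
      rw [Finset.mul_sum]
      exact Finset.sum_congr rfl fun _ _ => by ring
    · intro p hp
      by_contra e
      exact hp (by simp [hT p e i hi])

omit [NeZero N] in
theorem pr_lg_zero {κ : ℕ → ℕ → ZMod (2 * N) → ℚ} (h : Lgs δ δ' κ) {c : PP N} (hc : IsInt c)
    (h0 : pr (lg κ) c = 0) (p : ℕ) : pr (fun n r => (κ p n r : ℂ)) c = 0 := by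
  obtain ⟨T, hT, h1, h2⟩ := pr_lg h c
  choose k hk using hc
  have e : ∀ p, pr (fun n r => (κ p n r : ℂ)) c =
      ((∑ i ∈ c.support, k i * κ p i.1 i.2 : ℚ) : ℂ) := fun p => by
    simp only [pr, Finsupp.sum, hk]
    push_cast
    rfl
  by_cases hp : p ∈ T
  · rw [e, log_rat T hT (fun p => ∑ i ∈ c.support, k i * κ p i.1 i.2) ?_ p hp, Rat.cast_zero]
    rw [h0] at h2
    simp only [e] at h2
    exact_mod_cast h2.symm
  · rw [e, Finset.sum_eq_zero fun i hi => by rw [h1 p hp i hi, mul_zero], Rat.cast_zero]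

theorem not_one {p n : ℕ} (hp : p.Prime) (sq : Squarefree δ') (hd : ¬ p ∣ δ)
    (h1 : J(-(δ' : ℤ) | p) ≠ 1) (hn : IsSquare (δ * δ' * n)) : J(-((δ : ℤ) * n) | p) ≠ 1 := by
  intro h
  obtain ⟨m, hm⟩ := hn
  have e : J(-((δ : ℤ) * n) | p) * J(-(δ' : ℤ) | p) = J(m | p) * J(m | p) := by
    rw [← jacobiSym.mul_left, ← jacobiSym.mul_left]
    congr 1
    have : ((δ * δ' * n : ℕ) : ℤ) = ((m * m : ℕ) : ℤ) := by rw [hm]
    push_cast at this
    linear_combination this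
  rw [h, one_mul] at e
  have : NeZero p := ⟨hp.ne_zero⟩
  by_cases c : p ∣ m
  · have hn : ¬ p ∣ n := by
      intro c'
      rw [jacobiSym.eq_zero_iff_not_coprime.2] at h
      · exact zero_ne_one h
      · rw [Int.neg_gcd, ← Nat.cast_mul, Int.gcd_natCast_natCast]
        exact fun e => hp.coprime_iff_not_dvd.1 (Nat.Coprime.symm e) (c'.mul_left δ)
    have h2 : p * p ∣ δ' * (δ * n) := by
      rw [show δ' * (δ * n) = m * m by rw [← hm]; ring]
      exact mul_dvd_mul c c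
    have h3 : p.Coprime (δ * n) :=
      ((hp.coprime_iff_not_dvd.2 hd).mul_right (hp.coprime_iff_not_dvd.2 hn))
    exact hp.not_isUnit (sq p ((h3.mul_left h3).dvd_of_dvd_mul_right h2))
  · apply h1
    rw [e, ← pow_two, jacobiSym.sq_one]
    rw [Int.gcd_natCast_natCast]
    exact (hp.coprime_iff_not_dvd.2 c).symm

/-- the symmetric basis -/
def bb (δ : ℕ) (i : ℕ × ZMod (2 * N)) : PP N :=
  Finsupp.single i 1 + Finsupp.single (i.1, -i.2) (eps δ : ℂ)

def Ix (N δ δ' : ℕ) : Set (ℕ × ZMod (2 * N)) :=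
  {i | 0 < i.1 ∧ In N δ i.1 i.2 ∧ ¬ IsSquare (δ * δ' * i.1)}

/-- admissible principal parts off the squares -/
def MM (N δ δ' : ℕ) : Submodule ℂ (PP N) := Submodule.span ℂ (bb δ '' Ix N δ δ')

omit [NeZero N] in
theorem bb_int (i : ℕ × ZMod (2 * N)) : IsInt (bb δ i) := by
  classical
  intro j
  refine ⟨(if i = j then 1 else 0) + if (i.1, -i.2) = j then eps δ else 0, ?_⟩
  simp [bb, Finsupp.single_apply]

theorem mm_mem {c : PP N} (hc : c ∈ MM N δ δ') : ∀ i, c i ≠ 0 → i ∈ Ix N δ δ' := by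
  have : MM N δ δ' ≤ Finsupp.supported ℂ ℂ (Ix N δ δ') := by
    refine Submodule.span_le.2 ?_
    rintro _ ⟨i, hi, rfl⟩
    exact Submodule.add_mem _ (Finsupp.single_mem_supported ℂ _ hi)
      (Finsupp.single_mem_supported ℂ _ ⟨hi.1, in_neg.2 hi.2.1, hi.2.2⟩)
  exact fun i hi => this hc (Finsupp.mem_support_iff.2 hi)

theorem mm_off {c : PP N} (hc : c ∈ MM N δ δ') : Off δ δ' c :=
  fun i hi => (mm_mem hc i (Finsupp.mem_support_iff.1 hi)).2.2

theorem mm_adm {c : PP N} (hc : c ∈ MM N δ δ') : Adm δ c := by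
  classical
  refine ⟨fun r => ?_, fun n r h => (mm_mem hc _ h).2.1, ?_⟩
  · by_contra e
    exact lt_irrefl _ (mm_mem hc _ e).1
  · induction hc using Submodule.span_induction with
    | mem c h =>
      obtain ⟨⟨m, s⟩, -, rfl⟩ := h
      intro n r
      simp only [bb, Finsupp.add_apply, Finsupp.single_apply, Prod.mk.injEq,
        neg_eq_iff_eq_neg, neg_neg]
      split_ifs <;> simp [mul_add, eps_sqC, add_comm]
    | zero => simp
    | add c c' _ _ h h' => intro n r; simp [h, h', mul_add]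
    | smul k c _ h => intro n r; simp [h, mul_left_comm]

theorem mm_tt {l : ℕ} (hl : l.Prime) (h1 : ¬ l ∣ 2 * N * δ) {c : PP N} (hc : c ∈ MM N δ δ') :
    Tt δ l c ∈ MM N δ δ' := by
  have hco : l.Coprime (2 * N) := hl.coprime_iff_not_dvd.2 fun e => h1 (e.mul_right _)
  have hsq : ∀ n : ℕ, IsSquare (δ * δ' * (l ^ 2 * n)) ↔ IsSquare (δ * δ' * n) := by
    intro n
    rw [show δ * δ' * (l ^ 2 * n) = l ^ 2 * (δ * δ' * n) by ring]
    refine ⟨fun ⟨m, hm⟩ => ?_, fun h => (IsSquare.sq l).mul h⟩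
    obtain ⟨k, rfl⟩ : l ∣ m := by
      have : l ∣ m * m := hm ▸ (dvd_pow_self l two_ne_zero).mul_right _
      exact (hl.dvd_mul.1 this).elim id id
    refine ⟨k, Nat.eq_of_mul_eq_mul_left (pow_pos hl.pos 2) ?_⟩
    rw [hm]
    ring
  refine Submodule.span_le.2 (show _ ⊆ ((MM N δ δ').comap (Tt δ l) : Set (PP N)) from ?_) hc
  rintro _ ⟨⟨n, r⟩, hi, rfl⟩
  have m1 : bb δ (l ^ 2 * n, (l : ZMod (2 * N)) * r) ∈ MM N δ δ' :=
    Submodule.subset_span ⟨_, ⟨mul_pos (pow_pos hl.pos 2) hi.1, by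
      simpa using (in_mul hco).2 hi.2.1, fun e => hi.2.2 ((hsq n).1 e)⟩, rfl⟩
  have m2 : bb δ (n, r) ∈ MM N δ δ' := Submodule.subset_span ⟨_, hi, rfl⟩
  change Tt δ l (bb δ (n, r)) ∈ MM N δ δ'
  by_cases c : l ^ 2 ∣ n
  · obtain ⟨k, rfl⟩ := c
    have e : l ^ 2 * k / l ^ 2 = k := Nat.mul_div_cancel_left _ (pow_pos hl.pos 2)
    have m3 : bb δ (k, (l : ZMod (2 * N))⁻¹ * r) ∈ MM N δ δ' := by
      refine Submodule.subset_span ⟨_, ⟨Nat.pos_of_mul_pos_left hi.1, ?_,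
        fun e => hi.2.2 ((hsq k).2 e)⟩, rfl⟩
      rw [← in_mul hco, ← mul_assoc, ZMod.coe_mul_inv_eq_one _ hco, one_mul]
      simpa using hi.2.1
    convert Submodule.add_mem _ (Submodule.add_mem _ m1 (Submodule.smul_mem _
      ((J(l | δ) * J(-((δ : ℤ) * (l ^ 2 * k : ℕ)) | l) : ℤ) : ℂ) m2))
      (Submodule.smul_mem _ (l : ℂ) m3) using 1
    simp only [bb, map_add, tt_single, dvd_mul_right, if_true, e, smul_add, Finsupp.smul_single,
      smul_eq_mul, mul_one, one_mul, mul_neg, mul_comm (eps δ : ℂ)]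
    abel
  · convert Submodule.add_mem _ m1 (Submodule.smul_mem _
      ((J(l | δ) * J(-((δ : ℤ) * n) | l) : ℤ) : ℂ) m2) using 1
    simp only [bb, map_add, tt_single, if_neg c, smul_add, Finsupp.smul_single,
      smul_eq_mul, mul_one, one_mul, mul_neg, mul_comm (eps δ : ℂ), add_zero]
    abel

/-- the action of the free algebra -/
abbrev act (δ : ℕ) (P : FreeAlgebra ℤ (PA (2 * N * δ))) : Module.End ℂ (PP N) :=
  FreeAlgebra.lift ℤ (fun l : PA (2 * N * δ) => Tt δ l.1) P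

theorem mm_act (P : FreeAlgebra ℤ (PA (2 * N * δ))) :
    ∀ c ∈ MM N δ δ', act δ P c ∈ MM N δ δ' := by
  induction P with
  | grade0 k =>
    intro c hc
    rw [act, AlgHom.commutes, eq_intCast, Module.End.intCast_apply]
    exact zsmul_mem hc k
  | grade1 l =>
    intro c hc
    rw [act, FreeAlgebra.lift_ι_apply]
    exact mm_tt l.2.1 l.2.2 hc
  | mul P Q h h' =>
    intro c hc
    rw [act, map_mul]
    exact h _ (h' c hc)
  | add P Q h h' =>
    intro c hc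
    rw [act, map_add]
    exact add_mem (h c hc) (h' c hc)

theorem pr_act (hH : HECKE) (hS : SELF) (ok : Ok N δ) {a : ℕ → ℤ} {x : Cf N} (hx : IsS δ x)
    (he : Eig δ (2 * N * δ) a x) (P : FreeAlgebra ℤ (PA (2 * N * δ))) :
    ∃ k : ℤ, ∀ (c : PP N) (μ : ℂ), (∀ y, IsS δ y → pr y c = μ * B y x) →
      ∀ y, IsS δ y → pr y (act δ P c) = k * μ * B y x := by
  induction P with
  | grade0 k =>
    refine ⟨k, fun c μ h y hy => ?_⟩
    rw [act, AlgHom.commutes, eq_intCast, Module.End.intCast_apply, ← Int.cast_smul_eq_zsmul ℂ,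
      pr_smul, h y hy, mul_assoc]
  | grade1 l =>
    refine ⟨a l.1, fun c μ h y hy => ?_⟩
    rw [act, FreeAlgebra.lift_ι_apply, pr_tt, h _ (hH N δ l.1 ok l.2.1 l.2.2 y hy),
      B_tt hS ok hx he hy l.2.1 l.2.2 l.2.2]
    ring
  | mul P Q h h' =>
    obtain ⟨k, h⟩ := h
    obtain ⟨k', h'⟩ := h'
    refine ⟨k * k', fun c μ e y hy => ?_⟩
    rw [act, map_mul]
    refine (h _ (k' * μ) (h' c μ e) y hy).trans ?_
    push_cast
    ring
  | add P Q h h' =>
    obtain ⟨k, h⟩ := h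
    obtain ⟨k', h'⟩ := h'
    refine ⟨k + k', fun c μ e y hy => ?_⟩
    rw [act, map_add, LinearMap.add_apply, pr_add, h c μ e y hy, h' c μ e y hy]
    push_cast
    ring

/-- a principal part off the squares with given shadow -/
theorem ex_c (hF : FIN) (hP : PETS) (ok : Ok N δ) {x : Cf N} (hx : IsS δ x)
    (h : ∀ y, IsS δ y → (∀ n r, ¬ IsSquare (δ * δ' * n) → y n r = 0) → B y x = 0) :
    ∃ c ∈ MM N δ δ', ∀ y, IsS δ y → pr y c = B y x := by
  obtain ⟨V, hV, hfin⟩ := hF N δ ok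
  let Ψ : PP N →ₗ[ℂ] (V →ₗ[ℂ] ℂ) := LinearMap.mk₂ ℂ (fun c y => pr y.1 c)
    (fun c c' y => pr_add _ _ _) (fun k c y => pr_smul _ _ _) (fun c y y' => add_pr _ _ _)
    (fun k c y => smul_pr _ _ _)
  let f : V →ₗ[ℂ] ℂ :=
    { toFun := fun y => B y.1 x
      map_add' := fun y y' => B_add hP ok ((hV _).1 y.2) ((hV _).1 y'.2) hx
      map_smul' := fun k y => B_smul _ _ _ }
  have h1 : f ∈ Submodule.span ℂ (Set.range fun i : Ix N δ δ' => Ψ (bb δ i.1)) := by
    refine FiniteDimensional.mem_span_of_iInf_ker_le_ker fun y hy => ?_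
    have hS := (hV _).1 y.2
    refine h _ hS fun n r hn => ?_
    by_contra e
    have h2 : pr y.1 (bb δ (n, r)) = 0 := (Submodule.mem_iInf _).1 hy ⟨(n, r),
      Nat.pos_of_ne_zero fun e' : n = 0 => e (e' ▸ hS.zero r), hS.sup n r e, hn⟩
    rw [bb, pr_add, pr_single, pr_single, (hP N δ ok _ hS).1, ← mul_assoc, eps_sqC] at h2
    exact e (by linear_combination h2 / 2)
  have h2 : f ∈ (MM N δ δ').map Ψ := by
    refine Submodule.span_le.2 ?_ h1
    rintro _ ⟨i, rfl⟩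
    exact ⟨_, Submodule.subset_span ⟨_, i.2, rfl⟩, rfl⟩
  obtain ⟨c, hc, e⟩ := h2
  exact ⟨c, hc, fun y hy => LinearMap.congr_fun e ⟨y, (hV _).2 hy⟩⟩

omit [NeZero N] in
theorem zc_comb (k : ℂ) (c c' : PP N) : Zc δ (k • c + c') = k • Zc δ c + Zc δ c' := by
  funext z
  exact (pr_add (fun n r => (Zd N δ n r z : ℂ)) _ _).trans (by rw [pr_smul]; rfl)

omit [NeZero N] in
theorem zc_zero {c : PP N} {z : ℍ}
    (h : ∀ i ∈ c.support, ∀ l, disc l = -((δ : ℤ) * i.1) → evq l z ≠ 0) : Zc δ c z = 0 := by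
  refine Finset.sum_eq_zero fun i hi => ?_
  have : Zd N δ i.1 i.2 z = 0 := by
    refine finsum_eq_zero_of_forall_eq_zero fun l => if_neg fun e => h i hi l e.1 e.2
  simp [this]

theorem isS_gen (hS : SERRE) (hB : BOR) (ok : Ok N δ) {a : ℕ → ℤ} {x : Cf N} (h : Gen δ a x) :
    IsS δ x :=
  hS N δ ok x h.zero h.sup h.sym fun c hc => h.lin c (WH.int hc) (hB N δ ok c hc)

theorem wh_zero (hx : IsS δ (0 : Cf N)) : WH δ (0 : PP N) :=
  ⟨0, hx, by simp, by simp, by simp, by simp [summable_zero], by simp [hf_zero]⟩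

end Gl

open Gl in
theorem glue : GLUE := by
  intro hSMO hTRIV hHECKE hSELF hLEMV hFIN hPETS hSERRE hPAIR hEXH hGAU hLIFT hBOR hSHI hSHE hGU
    hKER hWALD _ hBDV hARE hARO N G a L δ δ' β hG hL hD hV
  have : NeZero N := ⟨hG.pos.ne'⟩
  obtain ⟨ε, hε, hAL⟩ := P004N.H461.pfAL N G a hG N 1 (mul_one N) (Nat.coprime_one_right N)
  obtain ⟨du, -, hco, -, -, hJ, hin⟩ := hGAU N δ δ' β hD
  have ok := hD.ok
  have hδ : δ ≠ 0 := (zero_lt_one.trans ok.one).ne'
  have hδ' : δ' ≠ 0 := hD.sq.ne_zero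
  have hN : N ≠ 0 := hG.pos.ne'
  have hs : ε * (eps δ * J(N | δ) : ℤ) = -1 ∨ ε * (eps δ * J(N | δ) : ℤ) = 1 := by
    have h1 : J(N | δ) = 1 ∨ J(N | δ) = -1 :=
      jacobiSym.eq_one_or_neg_one (by rw [Int.gcd_natCast_natCast]; exact ok.cop)
    have h2 : eps δ = 1 ∨ eps δ = -1 := jacobiSym.eq_one_or_neg_one (by simp)
    rcases hε with rfl | rfl <;> rcases h1 with h1 | h1 <;> rcases h2 with h2 | h2 <;>
      simp [h1, h2]
  rcases hs with hs | hs
  · obtain ⟨x, hx, ht⟩ := hARE N G a L δ δ' β ε hG hL hD hAL hs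
    exact ht (hWALD N δ δ' _ β G a x hD hG hV.1 (by positivity) (isS_gen hSERRE hBOR du.ok1 hx)
      hx.eig)
  intro s hs'
  obtain ⟨x, hx, ht, ι, hι, H0, P, m, hm, H1⟩ := hARO N G a L δ δ' β ε s hG hL hD hAL hs hs'
  have hS := isS_gen hSERRE hBOR ok hx
  suffices x = 0 from ht (by simp [this]) s hs'
  obtain ⟨κ, ℓ, hκ, K0, K1, K2⟩ := hKER N δ δ' β s hD hs'
  obtain ⟨-, B0, B1⟩ := hBDV N δ δ' β hD
  have far : ∀ c : PP N, Off δ δ' c → ∀ z ∈ s, ∀ i ∈ c.support, ∀ l,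
      disc l = -((δ : ℤ) * i.1) → evq l z ≠ 0 := fun c hc z hz i hi l h1 h2 =>
    hc i hi (B1 z (hs'.sup z hz) i.1 l h1 h2)
  have lift : ∀ a' x' c, Harm δ a' x' c → Off δ δ' c → ∃ Φ, Green (Gamma0 N) (Zc δ c) Φ ∧
      evd s (Bd N δ δ' β) Φ = pr (lg κ) c + ℓ x' := by
    intro a' x' c h ho
    obtain ⟨Φ, h1, h2⟩ := hLIFT N δ ok a' x' c h
    exact ⟨Φ, h1, K0 a' x' c Φ h ho fun z hz => h2 z (far c ho z hz)⟩
  obtain ⟨hd, ed⟩ := lgs_add hκ hι
  have tr : ∀ p : ℕ, p.Prime → ¬ p ∣ 2 * N * δ → J(-(δ' : ℤ) | p) ≠ 1 → ∀ y, IsS δ y →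
      (∀ (n : ℕ) r, ¬ IsSquare (δ * δ' * n) → J(-((δ : ℤ) * n) | p) = 1 → y n r = 0) →
      B y x = 0 := fun p hp h1 h2 y hy h =>
    orth hSELF hLEMV ok hS hx.eig hy hp h1
      (hTRIV N G a hG p hp fun e => h1 ((e.mul_left 2).mul_right δ))
      fun n r e => h n r (fun q => not_one hp hD.sq (fun e => h1 (e.mul_left _)) h2 q e) e
  obtain ⟨c, hc, hcx⟩ := ex_c (δ' := δ') hFIN hPETS ok hS fun y hy h => by
    obtain ⟨p, hp, h1, h2⟩ := hin (2 * N * δ) (by positivity)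
    exact tr p hp h1 (by rw [h2]; decide) y hy fun n r e _ => h n r e
  obtain ⟨k, hk⟩ := pr_act hHECKE hSELF ok hS hx.eig P
  have hk' := hk c 1 (by simpa using hcx)
  have hc' := mm_act P c hc
  -- the finite parts vanish
  have fin : pr (lg (κ + ι)) (act δ P c) = 0 := by
    obtain ⟨T, hT, -, e⟩ := pr_lg hd (act δ P c)
    rw [e]
    refine Finset.sum_eq_zero fun p hp => mul_eq_zero_of_left ?_ _
    by_cases sp : Spl δ' p
    · simp [pr, Finsupp.sum, hκ.spl p _ _ sp, hι.spl p _ _ sp]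
    obtain ⟨y, hy, y1, y2⟩ := serre_off hSERRE hPAIR ok (δ' := δ')
      (wh_zero (by simpa using isS_smul hFIN ok 0 hS)) (fun n r => ((κ + ι) p n r : ℂ)) (by
        intro c hc ho
        refine pr_lg_zero hd (WH.int hc) ?_ p
        obtain ⟨a', ha'⟩ := id hc
        obtain ⟨Φ, h1, h2⟩ := lift _ _ _ ha' ho
        have h3 := H0 c Φ (WH.int hc) ho (hBOR N δ ok c hc) h1
        rw [h2, K1, add_zero] at h3
        rw [ed, add_pr, h3])
    rw [Spl, not_or] at sp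
    have h1 : ¬ p ∣ 2 * N * δ := by
      intro e
      rw [mul_assoc] at e
      rcases ((hT p hp).dvd_mul).1 e with e | e
      · exact sp.1 ((Nat.prime_dvd_prime_iff_eq (hT p hp) Nat.prime_two).1 e)
      · exact sp.2 (hD.spl p (hT p hp) sp.1 e)
    rw [← y1 _ (mm_adm hc') (mm_off hc'), hk' y hy, tr p (hT p hp) h1 sp.2 y hy, mul_zero]
    intro n r e e'
    exact y2 n r e (by rw [hd.van p n r e', Rat.cast_zero]) (by rw [hd.van p n _ e', Rat.cast_zero])
  -- the height formula for complex coefficients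
  have R : ∀ c ∈ MM N δ δ', ∃ Φ, Green (Gamma0 N) (Zc δ (act δ P c)) Φ ∧
      evd s (Bd N δ δ' β) Φ + pr (lg ι) (act δ P c) = m * pr x c := by
    have R0 : ∃ Φ, Green (Gamma0 N) (Zc δ (act δ P 0)) Φ ∧
        evd s (Bd N δ δ' β) Φ + pr (lg ι) (act δ P 0) = m * pr x 0 := by
      refine ⟨0, ?_, by simp [evd, pr_zero]⟩
      rw [map_zero]
      exact green_zero
    have R1 : ∀ (k : ℂ) (c c' : PP N), c ∈ MM N δ δ' → c' ∈ MM N δ δ' →
        (∃ Φ, Green (Gamma0 N) (Zc δ (act δ P c)) Φ ∧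
          evd s (Bd N δ δ' β) Φ + pr (lg ι) (act δ P c) = m * pr x c) →
        (∃ Φ, Green (Gamma0 N) (Zc δ (act δ P c')) Φ ∧
          evd s (Bd N δ δ' β) Φ + pr (lg ι) (act δ P c') = m * pr x c') →
        ∃ Φ, Green (Gamma0 N) (Zc δ (act δ P (k • c + c'))) Φ ∧
          evd s (Bd N δ δ' β) Φ + pr (lg ι) (act δ P (k • c + c')) = m * pr x (k • c + c') := by
      rintro k c c' hc hc' ⟨Φ, h1, h2⟩ ⟨Φ', h1', h2'⟩
      obtain ⟨Ψ, h3, h4⟩ := green_comb k h1 h1'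
      refine ⟨Ψ, by rw [map_add, map_smul, zc_comb]; exact h3, ?_⟩
      have : evd s (Bd N δ δ' β) Ψ = k * evd s (Bd N δ δ' β) Φ + evd s (Bd N δ δ' β) Φ' := by
        simp only [evd, Finset.mul_sum, ← Finset.sum_add_distrib]
        refine Finset.sum_congr rfl fun z hz => ?_
        rw [h4 z (zc_zero (far _ (mm_off (mm_act P c hc)) z hz))
          (zc_zero (far _ (mm_off (mm_act P c' hc')) z hz))]
        ring
      rw [this, map_add, map_smul, pr_add, pr_add, pr_smul, pr_smul]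
      linear_combination k * h2 + h2'
    intro c hc
    induction hc using Submodule.span_induction with
    | mem c h =>
      have hc : c ∈ MM N δ δ' := Submodule.subset_span h
      have hc' := mm_act P c hc
      obtain ⟨a1, x1, h1⟩ := hEXH N δ ok c (mm_adm hc)
      obtain ⟨a2, x2, h2⟩ := hEXH N δ ok _ (mm_adm hc')
      obtain ⟨Φ, g1, -⟩ := hLIFT N δ ok _ _ _ h1
      obtain ⟨Φ', g2, -⟩ := hLIFT N δ ok _ _ _ h2
      obtain ⟨i, -, rfl⟩ := h
      exact ⟨Φ', g2, H1 _ _ Φ Φ' (bb_int i) (mm_off hc) rfl g1 g2⟩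
    | zero => exact R0
    | add c c' hc hc' h h' => simpa using R1 1 c c' hc hc' h h'
    | smul k c hc h => simpa using R1 k c 0 hc (zero_mem _) h R0
  obtain ⟨Φ, g1, g2⟩ := R c hc
  obtain ⟨a', x', h'⟩ := hEXH N δ ok _ (mm_adm hc')
  obtain ⟨Φ', g3, g4⟩ := lift _ _ _ h' (mm_off hc')
  obtain ⟨C, hC⟩ := hGU N _ Φ Φ' hG.pos g1 g3
  have e1 : evd s (Bd N δ δ' β) Φ' = evd s (Bd N δ δ' β) Φ := by
    have h0 : ∑ z ∈ s, (Bd N δ δ' β z : ℂ) = 0 := by exact_mod_cast B0 s hs'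
    rw [evd, evd, Finset.sum_congr rfl fun z hz => by
      rw [hC z (zc_zero (far _ (mm_off hc') z hz)), mul_add], Finset.sum_add_distrib,
      ← Finset.sum_mul, h0, zero_mul, add_zero]
  have e2 : x' = (k : ℂ) • x := eq_of_B hFIN hPETS ok k hS h'.s fun y hy => by
    rw [B, ← (hPAIR N δ ok _ _ _ h').2 y hy, hk' y hy, mul_one]
  have e3 : ℓ x' = 0 := by
    obtain ⟨C, -, hC⟩ := hSHI N δ (δ * δ') β du
    obtain ⟨s1, s2⟩ := hC x' h'.s
    have te := hSHE N δ (δ * δ') (2 * N * δ * (δ * δ')) β a x' du (fun l hl h1 => by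
      have h2 : ¬ l ∣ 2 * N * δ := fun e => h1 (e.mul_right _)
      have h3 : Odd l := hl.odd_of_ne_two fun e => h2 (e ▸ ((dvd_mul_right 2 N).mul_right δ))
      have h4 : J(δ | l) ^ 2 = 1 := jacobiSym.sq_one (by
        rw [Int.gcd_natCast_natCast]
        exact (hl.coprime_iff_not_dvd.2 fun e => h2 (e.mul_left _)).symm)
      rw [jacobiSym.mul_right' _ hδ hδ', ← hJ l h3, show -((δ : ℤ) * (δ * δ' : ℕ)) =
        δ ^ 2 * -(δ' : ℤ) by push_cast; ring, jacobiSym.mul_left, jacobiSym.pow_left, h4, one_mul])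
      dvd_rfl (fun l hl h1 => by
        have h2 := hx.eig l hl fun e => h1 (e.mul_right _)
        funext n r
        have h3 := congrFun (congrFun h2 n) r
        simp only [e2, TT, Pi.smul_apply, smul_eq_mul] at h3 ⊢
        split_ifs at h3 ⊢ <;> linear_combination k * h3)
    obtain ⟨κ', hκ'⟩ := hSMO N (2 * N * δ * (δ * δ')) G a hG (by positivity) _ _ s1 s2
      (fun p hp h1 n => by
        have h3 := te p hp h1 n
        split_ifs at h3 ⊢ <;> linear_combination C * h3)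
    exact K2 x' h'.s G a κ' ⟨hG.pos, hG.s2, hG.qe, hG.one, hG.te⟩ hV hκ'
  rw [ed, add_pr] at fin
  rw [← e1, g4, e3, add_zero, fin, hcx x hS] at g2
  exact (hPETS N δ ok x hS).2.2.2 ((mul_eq_zero.1 g2.symm).resolve_left hm)

end Vale.Agent.P004Z
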